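import Vale.Agent.P283R.Eq.Top
import Vale.Agent.P283R.Tq.Quo10

/-!
# P283R, block EQ: from the tier to the scheme statement
-/

set_option linter.all false

open Set CategoryTheory AlgebraicGeometry
open Vale.Agent.P289 Vale.Agent.P289.H219 Vale.Agent.P270L Vale.Agent.P283M.Am Vale.Agent.P299.G

noncomputable section

namespace Vale.Agent.P283R.Eq6

open Vale.Agent.P287D Vale.Agent.P283M Vale.Agent.P283M.Br Vale.Agent.P283M.Stm.Var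
open Vale.Agent.P283M.Stm (Contraction Pair HasKltComplement)
open Vale.Agent.P297Z Vale.Agent.P283R.Br Vale.Agent.P283R.Et
open Vale.Agent.P283R.Gl (pq pq_is pq_ord)

variable {X Y Z : Stm.Var}

theorem cl (π : Y.X ⟶ Z.X) [IsFinite π] {y : Pt Y.X}
    (hz : IsClosed ({y.map π} : Set (Pt Z.X))) : IsClosed ({y} : Set (Pt Y.X)) := by
  have d := π.isDiscrete_preimage_singleton (π y)
  have c : IsClosed (π ⁻¹' {π y}) := hz.preimage π.continuous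
  have := d.to_subtype
  have k := c.isClosedEmbedding_subtypeVal.isClosedMap {⟨y, rfl⟩} (isClosed_discrete _)
  rwa [image_singleton] at k

/-- the point of a maximal ideal -/
theorem pt {U : Y.X.Opens} (hU : IsAffineOpen U) {S : Subalgebra ℂ Y.K}
    (hS : ∀ a, a ∈ S ↔ ∀ x ∈ U, RegAt a x) {y₀ : Pt Y.X} (h0 : y₀ ∈ U) {r : Ideal S}
    (hr : r.IsMaximal) :
    ∃ y ∈ U, (∀ a : S, a ∉ r ↔ UnAt (a : Y.K) y) ∧ ∀ y' ∈ U, y ⤳ y' → y' = y := by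
  have : Nonempty U := ⟨⟨y₀, h0⟩⟩
  let ψ : Γ(Y.X, U) →+* Y.K := (Y.X.germToFunctionField U).hom
  let φ : Γ(Y.X, U) →+* S := ψ.codRestrict S fun t => (hS _).2 (mem_reg.1 (secK_reg U t))
  have sj : Function.Surjective φ := fun a =>
    let ⟨t, e⟩ := reg_iff.1 (mem_reg.2 ((hS a).1 a.2)); ⟨t, Subtype.ext e⟩
  have hm : (r.comap φ).IsMaximal := Ideal.comap_isMaximal_of_surjective φ sj
  let P : PrimeSpectrum Γ(Y.X, U) := ⟨r.comap φ, hm.isPrime⟩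
  have yU : hU.fromSpec P ∈ U := by
    have := mem_range_self (f := hU.fromSpec) P
    rwa [hU.range_fromSpec] at this
  refine ⟨hU.fromSpec P, yU, fun a => ?_, fun y' hy' s => ?_⟩
  · obtain ⟨t, rfl⟩ := sj a
    refine Iff.trans ?_ (un_secK t yU).symm
    have := hU.fromSpec_preimage_basicOpen t
    exact (show P ∈ PrimeSpectrum.basicOpen t ↔ P ∈ hU.fromSpec ⁻¹ᵁ Y.X.basicOpen t by
      rw [this]; rfl)
  · obtain ⟨P', rfl⟩ : y' ∈ range hU.fromSpec := by rw [hU.range_fromSpec]; exact hy'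
    have s' : P ⤳ P' := hU.fromSpec.isOpenEmbedding.isInducing.specializes_iff.1 s
    exact congrArg _ (s'.mem_closed ((PrimeSpectrum.isClosed_singleton_iff_isMaximal P).2 hm) rfl)

variable {U : Y.X.Opens} {y₀ : Pt Y.X} {S : Subalgebra ℂ Y.K} {χ : S →ₐ[ℂ] ℂ}

/-- the prime divisors of the affine model -/
theorem pd (bs : Bs (𝟙 Y.X) (RingEquiv.refl Y.K) U y₀ S χ) {q : Ideal S} {R : Pl Y.K}
    (c : Cen S q R) (lo : ∀ a ∈ R.ring, a ∈ Lo S q) :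
    ∃ E : Y.PrimeDiv, E.1 ∈ U ∧ pq E = R ∧ Dom R.ring E.1 := by
  obtain ⟨x, hx, dm⟩ := bs.ctr R fun a ha => (c ⟨a, ha⟩).1
  have k : Prm S R := fun g hg =>
    let ⟨s, t, ht, e⟩ := lo g hg; ⟨s, s.2, t, t.2, mt (c t).2.2 ht, e⟩
  exact ⟨⟨x, bs.codim hx dm k⟩, hx, pl_eq (pq_is _) dm, dm⟩

theorem thr (bs : Bs (𝟙 Y.X) (RingEquiv.refl Y.K) U y₀ S χ) (hU : IsAffineOpen U) (h0 : y₀ ∈ U)
    {F : Y.PrimeDiv} (s : F.1 ⤳ y₀) : Thr S χ (pq F) ∧ Prm S (pq F) := by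
  have m : F.1 ∈ U := s.mem_open U.isOpen h0
  refine ⟨⟨fun a ha => (pq_is F a).2 ((bs.memZ a).1 ha _ m), fun a e => by_contra fun n =>
    let u := (bs.uz a).1 n
    (pq_is F).dom.rd ⟨u.1, reg_gen s u.2.1, reg_gen s u.2.2⟩ e⟩, fun g hg => ?_⟩
  obtain ⟨a, ha, b, hb, u, e⟩ := bs.frac hU m (g := g) ((pq_is F g).1 hg)
  exact ⟨a, ha, b, hb, (pq_is F).dom.rd u, e⟩

theorem emd {E : ℕ} (bs : Bs (𝟙 Y.X) (RingEquiv.refl Y.K) U y₀ S χ) (hU : IsAffineOpen U)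
    {y : Pt Y.X} (yU : y ∈ U) {r : Ideal S} (hy : ∀ a : S, a ∉ r ↔ UnAt (a : Y.K) y)
    {s : Fin E → St Y.X y} (e : Ideal.span (range s) = IsLocalRing.maximalIdeal _) :
    Bx.Emd E S r := by
  choose a ha b hb u w using fun j => bs.frac hU yU (g := toRat (s j)) ⟨_, rfl⟩
  have b0 : ∀ j, b j ≠ 0 := fun j => (u j).1
  refine ⟨fun j => ⟨a j, ha j⟩, fun j => by_contra fun n => ?_, fun x hx => ?_⟩
  · have k := (hy _).1 n
    have : UnAt (toRat (s j)) y := by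
      rw [w j]
      exact ⟨div_ne_zero k.1 (b0 j), by rw [div_eq_mul_inv]; exact reg_mul k.2.1 (u j).2.2,
        by rw [inv_div, div_eq_mul_inv]; exact reg_mul (u j).2.1 k.2.2⟩
    exact (e.le (Ideal.subset_span ⟨j, rfl⟩)) (P270L.S.un_toK.1 this)
  · obtain ⟨α, hα⟩ := (bs.memZ x).1 x.2 y yU
    have m : α ∈ IsLocalRing.maximalIdeal _ := fun k =>
      (hy x).2 (by have := P270L.S.un_toK.2 k; exact hα ▸ this) hx
    obtain ⟨c, hc⟩ := Ideal.mem_span_range_iff_exists_fun.1 (e.ge m)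
    refine ⟨fun j => toRat (c j) * (b j)⁻¹, fun j => ?_, ?_⟩
    · obtain ⟨a', ha', b', hb', u', w'⟩ := bs.frac hU yU (g := toRat (c j) * (b j)⁻¹)
        (reg_mul ⟨_, rfl⟩ (u j).2.2)
      exact ⟨⟨a', ha'⟩, ⟨b', hb'⟩, (hy _).2 u', w'⟩
    · refine Eq.trans (Eq.symm hα) ?_
      rw [← hc]
      refine (map_sum (algebraMap _ Y.K) _ _).trans (Finset.sum_congr rfl fun j _ => ?_)
      rw [map_mul]
      exact (congrArg _ (w j)).trans (by rw [div_eq_inv_mul, mul_assoc])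

/-- **the glue** -/
theorem glue {d E Q N : ℕ} {ε : ℝ} (hd : 1 ≤ d) (hε : 0 < ε) (N1 : 1 ≤ N) (hN : Pe6 d E Q ε N)
    {f : X.X ⟶ Z.X} {ω : DForm ℂ X.K d} {B : X.QDiv} {z : Pt Z.X} (hdim : dimension X.str = d)
    (hω : ω.Nonzero) (hB : Pair (ε ≤ ·) ⊤ ω B) (hf : Contraction f) (hp : P283R.Stm.Birational f)
    (hg : ∃ m g, 0 < m ∧ ∀ y : Pt X.X, y.map f = z → LocalEq (logCan ω B) m g y)
    (hz : IsClosed ({z} : Set (Pt Z.X))) {π : Y.X ⟶ Z.X} {ι : Z.K →+* Y.K}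
    {G : Subgroup (Y.K ≃ₐ[ℂ] Y.K)} (p1 : IsFinite π) (p2 : Surjective π)
    (p3 : π ≫ Z.str = Y.str) (p4 : Et.Pe π ι) (p5 : Finite G) (p6 : ∀ g, Fix G g ↔ ∃ a, ι a = g)
    (p7 : ∀ E : Y.PrimeDiv, ∃ y : Z.PrimeDiv, E.1.map π = y.1 ∧ ∀ a, ord (ι a) E = ord a y)
    (em : ∀ y : Pt Y.X, y.map π = z → ∃ s : Fin E → St Y.X y,
      Ideal.span (range s) = IsLocalRing.maximalIdeal _)
    (hc : FF Y.K d → ∀ (m : ℕ) (g J : Y.K) (y : Pt Y.X), 0 < m → g ≠ 0 → J ≠ 0 → y.map π = z →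
      (∀ E : Y.PrimeDiv, E.1 ⤳ y → ∃ (E' : X.PrimeDiv) (F : Z.PrimeDiv), E'.1.map f = F.1 ∧
        ((pq E).ord g : ℝ) / m = cn Y.K d (pq E) - (pq E).ord J + B E') →
      ∃ h : Y.K, h ≠ 0 ∧ ∀ E : Y.PrimeDiv, E.1 ⤳ y →
        ((pq E).ord g : ℝ) / m = (pq E).ord h / Q) : HasKltComplement f ω B (2 * N) z := by
  obtain ⟨p, hp⟩ := hp
  obtain ⟨m, g, m0, hg⟩ := hg
  obtain ⟨_, ⟨U, hU, rfl⟩, zU, -⟩ :=
    Z.X.isBasis_affineOpens.exists_subset_of_mem_open (Set.mem_univ z) isOpen_univ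
  obtain ⟨A, χ, bs⟩ := exists_bs ctr_id pb_id hU zU hz
  obtain ⟨y₀, rfl⟩ := p2.surj z
  have hU' : IsAffineOpen (π ⁻¹ᵁ U) := hU.preimage π
  obtain ⟨S, χ', bs'⟩ := exists_bs ctr_id pb_id hU' (z := y₀) zU (cl π hz)
  let _ := ι.toAlgebra
  refine coreE (e := 𝟙 Z.X) (w := π y₀) hd hε hdim hω hB hf hp m0 hg hz (Category.id_comp _) hU zU
    bs N1 fun hK g g0 h1 h2 => ?_
  obtain ⟨q1, hL, q3, -, q5⟩ := Tq.quo10 Z Y d π ι G U hK p1 p2 p3 p4 p5 p6 p7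
  have un : ∀ E : Y.PrimeDiv, E.1 ∈ π ⁻¹ᵁ U → ∃ F : Z.PrimeDiv, E.1.map π = F.1 ∧
      Lies ι (pq E) (pq F) ∧ (pq E).ord (ι (pq F).t) = 1 := fun E _ => by
    obtain ⟨F, a, b⟩ := p7 E
    have o : ∀ a, (pq E).ord (ι a) = (pq F).ord a := fun a => by rw [← pq_ord, ← pq_ord, b]
    exact ⟨F, a, fun f => Tq.Q10.mem_iff (map_eq_zero ι).symm (o f).symm,
      (o _).trans (Pl.ord_t _)⟩
  have hG : Gq d G S A := ⟨⟨hL, bs'.fg, bs_fr bs' hU' zU⟩, bs_nor bs' hU' zU, p5,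
    fun σ hσ a ha => (bs'.memZ _).2 fun x hx => by
      obtain ⟨x', e, r⟩ := q5 σ hσ x
      exact (r a).1 ((bs'.memZ a).1 ha x' (show x'.map π ∈ U from e ▸ hx)),
    q3.fix, fun a => ⟨fun ha => (bs'.memZ _).2 fun x hx => p4.reg ((bs.memZ a).1 ha _ hx),
      fun ha => (bs.memZ a).2 fun x hx => har Z a x fun F c => by
        obtain ⟨P, l⟩ := Pb.up_alg hL (pq F)
        obtain ⟨F', c', rfl⟩ := (q3.lies P).2 ⟨_, ⟨F, c.mem_open U.isOpen hx, rfl⟩, l⟩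
        rw [pq_ord]
        exact Pl.ord_nonneg_of_mem _ ((l a).2 ((pq_is F' _).2 ((bs'.memZ _).1 ha _ c')))⟩,
    fun q R c lo σ hσ i => by
      obtain ⟨E, m, rfl, -⟩ := pd bs' c lo
      obtain ⟨F, -, -, o⟩ := un E m
      exact free p5 c lo hσ i ((p6 _).2 ⟨_, rfl⟩) o⟩
  refine hN Z.K Y.K G S A χ m g hK hG m0 g0 h1 (fun P hP k => ?_) fun r hr mx => ?_
  · obtain ⟨E, -, -, -, -, -, -, e⟩ := h2 P hP k
    rw [e, neg_nonpos]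
    exact_mod_cast hB.1 E trivial
  obtain ⟨y, yU, hy, cy⟩ := pt hU' bs'.memZ (y₀ := y₀) zU mx
  have yz : Pt.map π y = π y₀ := by
    have s := bs.sp (π y) yU fun a ha => (p4.un ((bs.memZ a).1 a.2 _ yU)).1
      ((hy ⟨_, (hG.mem a).1 a.2⟩).1 fun k => ha (hr a _ rfl k))
    obtain ⟨y', a, b⟩ := π.isClosedMap.specializingMap s
    exact (congrArg _ (cy y' (show π y' ∈ U from b ▸ zU) a).symm).trans b
  obtain ⟨s, hs⟩ := em y yz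
  obtain ⟨J, hJ⟩ := exists_rat (K' := Y.K) hK hL
  have mR : (m : ℝ) ≠ 0 := Nat.cast_ne_zero.2 m0.ne'
  obtain ⟨h, h0, hh⟩ := hc hL m (ι g) J y m0 ((map_ne_zero ι).2 g0) hJ.1 yz fun E c => by
    obtain ⟨F, a, l, o⟩ := un E (c.mem_open (π ⁻¹ᵁ U).isOpen yU)
    obtain ⟨t1, t2⟩ := thr bs hU zU (F := F) (a ▸ yz ▸ c.map π.continuous)
    obtain ⟨E', -, F', e0, -, -, -, e4⟩ := h2 _ t1 t2
    refine ⟨E', F', e0, ?_⟩
    have k := hJ.dsc_up hK hL m0 g0 l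
    rw [show (pq E).ord (algebraMap Z.K Y.K (pq F).t) = 1 from o, e4] at k
    simp only [dsc, Pi.sub_apply, Pi.smul_apply, dv, smul_eq_mul,
      Pl.ord_mul _ ((map_ne_zero (algebraMap Z.K Y.K)).2 g0) (pow_ne_zero m hJ.1),
      Pl.ord_pow] at k
    push_cast at k
    rw [mul_add, inv_mul_cancel_left₀ mR] at k
    rw [div_eq_inv_mul]
    change _ * (((pq E).ord (algebraMap Z.K Y.K g) : ℤ) : ℝ) = _
    linarith
  refine ⟨emd bs' hU' yU hy hs, h, h0, fun R ⟨q, le, c, lo⟩ => ?_⟩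
  obtain ⟨E, m, rfl, dm⟩ := pd bs' c lo
  exact hh E (spec_of_un hU' yU m fun a ha u => by
    have k := (bs'.memZ a).2 (mem_reg.1 ha)
    exact un_of_rd dm (mem_reg.1 ha _ m) (mt (c ⟨a, k⟩).2.2 fun n => (hy ⟨a, k⟩).2 u (le n)))

theorem gor {d q m : ℕ} (hL : FF Y.K d) {θ : DForm ℂ Y.K d} (θ0 : θ.Nonzero) (hq : 1 ≤ q)
    {g J γ : Y.K} {y : Pt Y.X} (J0 : J ≠ 0) (hγ : LocalEq (logCan θ 0) q γ y)
    (k : ∀ E : Y.PrimeDiv, E.1 ⤳ y →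
      ((pq E).ord g : ℝ) / m = cn Y.K d (pq E) - (pq E).ord J) :
    ∃ h : Y.K, h ≠ 0 ∧ ∀ E : Y.PrimeDiv, E.1 ⤳ y →
      ((pq E).ord g : ℝ) / m = (pq E).ord h / q := by
  obtain ⟨j, j0, fr⟩ := frm Y d hL θ θ0
  have QR : (q : ℝ) ≠ 0 := Nat.cast_ne_zero.2 (by omega)
  refine ⟨γ / (j * J) ^ q, div_ne_zero hγ.1 (pow_ne_zero _ (mul_ne_zero j0 J0)), fun E e => ?_⟩
  have f1 := fr Y (RingEquiv.refl _) E (pq E) (pq_is E) (pq_ord E)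
  have f2 : ((ord γ E : ℤ) : ℚ) = q * ((formOrd θ (RingEquiv.refl Y.K) E : ℚ) + 0) := hγ.2 E e
  have f3 : (((pq E).ord γ : ℤ) : ℝ) = q * (formOrd θ (RingEquiv.refl Y.K) E : ℝ) := by
    rw [add_zero, pq_ord] at f2
    exact_mod_cast f2
  rw [k E e, Pl.ord_div _ hγ.1 (pow_ne_zero _ (mul_ne_zero j0 J0)), Pl.ord_pow,
    Pl.ord_mul _ j0 J0, eq_div_iff QR]
  push_cast
  rw [f3, f1]
  ring

end Vale.Agent.P283R.Eq6
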