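import Vale.Agent.P283R.Eq.Gl

/-!
# P283R, block EQ: the glue with the boundary of the cover
-/

set_option linter.all false

open Set CategoryTheory AlgebraicGeometry
open Vale.Agent.P289 Vale.Agent.P289.H219 Vale.Agent.P270L Vale.Agent.P283M.Am Vale.Agent.P299.G

noncomputable section

namespace Vale.Agent.P283R.Eq6

open Vale.Agent.P287D Vale.Agent.P283M Vale.Agent.P283M.Br Vale.Agent.P283M.Stm.Var
open Vale.Agent.P283M.Stm (Contraction Pair HasKltComplement)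
open Vale.Agent.P297Z Vale.Agent.P283R.Br Vale.Agent.P283R.Et
open Vale.Agent.P283R.Gl (pq pq_is pq_ord)

variable {X Y Z : Stm.Var}

/-- **the glue** -/
theorem glue2 {d E Q N : ℕ} {ε : ℝ} (hd : 1 ≤ d) (hε : 0 < ε) (N1 : 1 ≤ N) (hN : Pe6 d E Q ε N)
    {f : X.X ⟶ Z.X} {ω : DForm ℂ X.K d} {B : X.QDiv} {z : Pt Z.X} (hdim : dimension X.str = d)
    (hω : ω.Nonzero) (hB : Pair (ε ≤ ·) ⊤ ω B) (hf : Contraction f) (hp : P283R.Stm.Birational f)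
    (hg : ∃ m g, 0 < m ∧ ∀ y : Pt X.X, y.map f = z → LocalEq (logCan ω B) m g y)
    (hz : IsClosed ({z} : Set (Pt Z.X))) {π : Y.X ⟶ Z.X} {ι : Z.K →+* Y.K}
    {G : Subgroup (Y.K ≃ₐ[ℂ] Y.K)} (p1 : IsFinite π) (p2 : Surjective π)
    (p3 : π ≫ Z.str = Y.str) (p4 : Et.Pe π ι) (p5 : Finite G) (p6 : ∀ g, Fix G g ↔ ∃ a, ι a = g)
    (p7 : ∀ E : Y.PrimeDiv, ∃ y : Z.PrimeDiv, E.1.map π = y.1 ∧ ∀ a, ord (ι a) E = ord a y)
    (em : ∀ y : Pt Y.X, y.map π = z → ∃ s : Fin E → St Y.X y,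
      Ideal.span (range s) = IsLocalRing.maximalIdeal _)
    (hc : FF Y.K d → ∀ (m : ℕ) (g J : Y.K) (y : Pt Y.X), 0 < m → g ≠ 0 → J ≠ 0 → y.map π = z →
      (∀ E : Y.PrimeDiv, E.1 ⤳ y → ∃ (E' : X.PrimeDiv) (F : Z.PrimeDiv), E'.1.map f = F.1 ∧
        E.1.map π = F.1 ∧ ((pq E).ord g : ℝ) / m = cn Y.K d (pq E) - (pq E).ord J + B E') →
      ∃ h : Y.K, h ≠ 0 ∧ ∀ E : Y.PrimeDiv, E.1 ⤳ y →
        ((pq E).ord g : ℝ) / m = (pq E).ord h / Q) : HasKltComplement f ω B (2 * N) z := by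
  obtain ⟨p, hp⟩ := hp
  obtain ⟨m, g, m0, hg⟩ := hg
  obtain ⟨_, ⟨U, hU, rfl⟩, zU, -⟩ :=
    Z.X.isBasis_affineOpens.exists_subset_of_mem_open (Set.mem_univ z) isOpen_univ
  obtain ⟨A, χ, bs⟩ := exists_bs ctr_id pb_id hU zU hz
  obtain ⟨y₀, rfl⟩ := p2.surj z
  have hU' : IsAffineOpen (π ⁻¹ᵁ U) := hU.preimage π
  obtain ⟨S, χ', bs'⟩ := exists_bs ctr_id pb_id hU' (z := y₀) zU (cl π hz)
  let _ := ι.toAlgebra
  refine coreE (e := 𝟙 Z.X) (w := π y₀) hd hε hdim hω hB hf hp m0 hg hz (Category.id_comp _) hU zU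
    bs N1 fun hK g g0 h1 h2 => ?_
  obtain ⟨q1, hL, q3, -, q5⟩ := Tq.quo10 Z Y d π ι G U hK p1 p2 p3 p4 p5 p6 p7
  have un : ∀ E : Y.PrimeDiv, E.1 ∈ π ⁻¹ᵁ U → ∃ F : Z.PrimeDiv, E.1.map π = F.1 ∧
      Lies ι (pq E) (pq F) ∧ (pq E).ord (ι (pq F).t) = 1 := fun E _ => by
    obtain ⟨F, a, b⟩ := p7 E
    have o : ∀ a, (pq E).ord (ι a) = (pq F).ord a := fun a => by rw [← pq_ord, ← pq_ord, b]
    exact ⟨F, a, fun f => Tq.Q10.mem_iff (map_eq_zero ι).symm (o f).symm,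
      (o _).trans (Pl.ord_t _)⟩
  have hG : Gq d G S A := ⟨⟨hL, bs'.fg, bs_fr bs' hU' zU⟩, bs_nor bs' hU' zU, p5,
    fun σ hσ a ha => (bs'.memZ _).2 fun x hx => by
      obtain ⟨x', e, r⟩ := q5 σ hσ x
      exact (r a).1 ((bs'.memZ a).1 ha x' (show x'.map π ∈ U from e ▸ hx)),
    q3.fix, fun a => ⟨fun ha => (bs'.memZ _).2 fun x hx => p4.reg ((bs.memZ a).1 ha _ hx),
      fun ha => (bs.memZ a).2 fun x hx => har Z a x fun F c => by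
        obtain ⟨P, l⟩ := Pb.up_alg hL (pq F)
        obtain ⟨F', c', rfl⟩ := (q3.lies P).2 ⟨_, ⟨F, c.mem_open U.isOpen hx, rfl⟩, l⟩
        rw [pq_ord]
        exact Pl.ord_nonneg_of_mem _ ((l a).2 ((pq_is F' _).2 ((bs'.memZ _).1 ha _ c')))⟩,
    fun q R c lo σ hσ i => by
      obtain ⟨E, m, rfl, -⟩ := pd bs' c lo
      obtain ⟨F, -, -, o⟩ := un E m
      exact free p5 c lo hσ i ((p6 _).2 ⟨_, rfl⟩) o⟩
  refine hN Z.K Y.K G S A χ m g hK hG m0 g0 h1 (fun P hP k => ?_) fun r hr mx => ?_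
  · obtain ⟨E, -, -, -, -, -, -, e⟩ := h2 P hP k
    rw [e, neg_nonpos]
    exact_mod_cast hB.1 E trivial
  obtain ⟨y, yU, hy, cy⟩ := pt hU' bs'.memZ (y₀ := y₀) zU mx
  have yz : Pt.map π y = π y₀ := by
    have s := bs.sp (π y) yU fun a ha => (p4.un ((bs.memZ a).1 a.2 _ yU)).1
      ((hy ⟨_, (hG.mem a).1 a.2⟩).1 fun k => ha (hr a _ rfl k))
    obtain ⟨y', a, b⟩ := π.isClosedMap.specializingMap s
    exact (congrArg _ (cy y' (show π y' ∈ U from b ▸ zU) a).symm).trans b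
  obtain ⟨s, hs⟩ := em y yz
  obtain ⟨J, hJ⟩ := exists_rat (K' := Y.K) hK hL
  have mR : (m : ℝ) ≠ 0 := Nat.cast_ne_zero.2 m0.ne'
  obtain ⟨h, h0, hh⟩ := hc hL m (ι g) J y m0 ((map_ne_zero ι).2 g0) hJ.1 yz fun E c => by
    obtain ⟨F, a, l, o⟩ := un E (c.mem_open (π ⁻¹ᵁ U).isOpen yU)
    obtain ⟨t1, t2⟩ := thr bs hU zU (F := F) (a ▸ yz ▸ c.map π.continuous)
    obtain ⟨E', F₁, F', e0, e1, -, e3, e4⟩ := h2 _ t1 t2
    have e5 : pq F₁ = pq F := Pl.ext' (congrArg _ (Pl.eq_of_le' (v := (pq F₁).toPlace)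
      (w := (pq F).toPlace) fun b hb =>
        (Tq.Q10.mem_iff Iff.rfl ((pq_ord F₁ b).symm.trans (e3 b))).1 hb))
    have e6 : F₁.1 = F.1 := Crv.dom_unique (dom_S (pq_is F₁).dom) (dom_S (e5 ▸ (pq_is F).dom))
    refine ⟨E', F', e0, a.trans (e6.symm.trans e1), ?_⟩
    have k := hJ.dsc_up hK hL m0 g0 l
    rw [show (pq E).ord (algebraMap Z.K Y.K (pq F).t) = 1 from o, e4] at k
    simp only [dsc, Pi.sub_apply, Pi.smul_apply, dv, smul_eq_mul,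
      Pl.ord_mul _ ((map_ne_zero (algebraMap Z.K Y.K)).2 g0) (pow_ne_zero m hJ.1),
      Pl.ord_pow] at k
    push_cast at k
    rw [mul_add, inv_mul_cancel_left₀ mR] at k
    rw [div_eq_inv_mul]
    change _ * (((pq E).ord (algebraMap Z.K Y.K g) : ℤ) : ℝ) = _
    linarith
  refine ⟨emd bs' hU' yU hy hs, h, h0, fun R ⟨q, le, c, lo⟩ => ?_⟩
  obtain ⟨E, m, rfl, dm⟩ := pd bs' c lo
  exact hh E (spec_of_un hU' yU m fun a ha u => by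
    have k := (bs'.memZ a).2 (mem_reg.1 ha)
    exact un_of_rd dm (mem_reg.1 ha _ m) (mt (c ⟨a, k⟩).2.2 fun n => (hy ⟨a, k⟩).2 u (le n)))

theorem gor2 {d q m k : ℕ} (hL : FF Y.K d) {θ : DForm ℂ Y.K d} (θ0 : θ.Nonzero) {Δ : Y.QDiv}
    (k0 : 0 < k) (kq : k ≤ q) {g J γ : Y.K} {y : Pt Y.X} (J0 : J ≠ 0)
    (hγ : LocalEq (logCan θ Δ) k γ y) (H : ∀ E : Y.PrimeDiv, E.1 ⤳ y →
      ((pq E).ord g : ℝ) / m = cn Y.K d (pq E) - (pq E).ord J + Δ E) :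
    ∃ h : Y.K, h ≠ 0 ∧ ∀ E : Y.PrimeDiv, E.1 ⤳ y →
      ((pq E).ord g : ℝ) / m = (pq E).ord h / (q.factorial : ℕ) := by
  obtain ⟨j, j0, fr⟩ := frm Y d hL θ θ0
  obtain ⟨c, hc⟩ := Nat.dvd_factorial k0 kq
  have QR : ((q.factorial : ℕ) : ℝ) ≠ 0 := Nat.cast_ne_zero.2 q.factorial_ne_zero
  have a0 := pow_ne_zero c hγ.1
  have b0 := pow_ne_zero q.factorial (mul_ne_zero j0 J0)
  refine ⟨γ ^ c / (j * J) ^ q.factorial, div_ne_zero a0 b0, fun E e => ?_⟩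
  have f1 := fr Y (RingEquiv.refl _) E (pq E) (pq_is E) (pq_ord E)
  have f2 : ((ord γ E : ℤ) : ℚ) = k * ((formOrd θ (RingEquiv.refl Y.K) E : ℚ) + Δ E) := hγ.2 E e
  have f3 : (((pq E).ord γ : ℤ) : ℝ) =
      k * ((formOrd θ (RingEquiv.refl Y.K) E : ℝ) + (Δ E : ℝ)) := by
    rw [pq_ord] at f2
    exact_mod_cast f2
  rw [H E e, Pl.ord_div _ a0 b0, Pl.ord_pow, Pl.ord_pow, Pl.ord_mul _ j0 J0, eq_div_iff QR, hc]
  push_cast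
  rw [f3, f1]
  ring

end Vale.Agent.P283R.Eq6
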