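import Vale.Agent.P283R.Lz.W

/-!
# Bounded klt complements: bounded embedding dimension
-/

open CategoryTheory AlgebraicGeometry

namespace Vale.Agent.P283R.Lz

open Sl Sl.Var

/-- The maximal ideals of the local rings of `X` at the points of the fibre over `z` are generated
by `N` elements: the Zariski tangent spaces have dimension at most `N`. -/
def EmbDim (N : ℕ) {X Z : Var} (f : X.X ⟶ Z.X) (z : Pt Z.X) : Prop :=
  ∀ x : Pt X.X, x.map f = z → ∃ s : Fin N → St X.X x,
    Ideal.span (Set.range s) = IsLocalRing.maximalIdeal (St X.X x)

end Vale.Agent.P283R.Lz
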