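import Vale.Agent.P283R.Eq.Gl
import Vale.Agent.P283R.Eq.W
import Vale.Agent.P283R.Lz.On

/-!
# P283R, block EQ: quotients of germs of bounded embedding dimension
-/

open CategoryTheory AlgebraicGeometry

namespace Vale.Agent.P283R.Lz

open Sl Sl.Var Vale.Agent.P287D Vale.Agent.P297Z
open Vale.Agent.P283R.Gl (pq pq_is pq_ord)

/-- the cover has torsion-free local class groups -/
theorem on_eq (M : ℕ → ℕ) : On fun d _ Z f ω B z => Crepant f ω B z ∧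
    ∃ (S : Var) (π : S.X ⟶ Z.X), FinQuot π ∧ EmbDim (M d) π z ∧ NoTors π z := by
  intro d hd ε hε R hR
  have hQ : 1 ≤ ∏ r ∈ R, r.den := Finset.prod_pos (s := R) fun a _ => Rat.den_pos a
  obtain ⟨n, hn, H⟩ := Eq6.top d (M d) hQ hε
  refine ⟨2 * n, by omega, fun X Z f ω B z a b c i s t ⟨u, S, π, fq, em, nt⟩ =>
    (has_iff f ω B _ z).2 ?_⟩
  obtain ⟨p1, p2, p3, ι, G, p4, ⟨p5, p6⟩, p7⟩ := FreeQuotient.fin fq
  have hB := (pair_iff _ _ ω B).1 c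
  refine Eq6.glue (X := X.o) (Y := S.o) (Z := Z.o) hd hε hn H a b hB s u.1 u.2 t p1 p2 p3 p4 p5 p6
    p7 em fun _ m g J y m0 g0 _ hy k => ?_
  generalize hq : ∏ r ∈ R, r.den = Q at hQ
  have mR : (m : ℝ) ≠ 0 := Nat.cast_ne_zero.2 m0.ne'
  have QR : (Q : ℝ) ≠ 0 := Nat.cast_ne_zero.2 (by omega)
  have w : ∀ E : S.o.PrimeDiv, ∃ j : ℤ, E.1 ⤳ y → (Q : ℝ) * (pq E).ord g = m * j := fun E => by
    by_cases e : E.1 ⤳ y
    · obtain ⟨E', -, -, k⟩ := k E e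
      obtain ⟨l, hl⟩ := Eq6.cn_int d (pq E)
      obtain ⟨j, hj⟩ : ∃ j : ℕ, (Q : ℚ) * B E' = j := by
        by_cases z : B E' = 0
        · exact ⟨0, by rw [z]; simp⟩
        · exact hq ▸ P283R.Br.den R (i _ z) (hB.1 _ trivial)
      have hj' : (Q : ℝ) * (B E' : ℝ) = j := by exact_mod_cast hj
      refine ⟨Q * (l - (pq E).ord J) + j, fun _ => ?_⟩
      rw [hl, div_eq_iff mR] at k
      push_cast
      linear_combination Q * k + m * hj'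
    · exact ⟨0, fun k => (e k).elim⟩
  choose D hD using w
  obtain ⟨h, h0, hh⟩ := nt D y m (g ^ Q) hy m0 ⟨pow_ne_zero _ g0, fun E e => by
    have e1 : ord (g ^ Q) E = Q * (pq (X := S.o) E).ord g :=
      (pq_ord (X := S.o) E _).trans (Pl.ord_pow _ _ _)
    have e2 : (Q : ℤ) * (pq (X := S.o) E).ord g = m * D E := by exact_mod_cast hD E e
    rw [e1, e2]
    push_cast
    rfl⟩
  refine ⟨h, h0, fun E e => ?_⟩
  have e1 : ((pq E).ord h : ℚ) = D E := by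
    rw [← pq_ord]
    exact (hh E e).trans (by simp)
  have e2 : ((pq E).ord h : ℝ) = D E := by exact_mod_cast e1
  rw [e2, div_eq_div_iff mR QR]
  linear_combination hD E e

/-- exceptional boundary, `q K` of the cover is Cartier -/
theorem on_eq0 (M q : ℕ → ℕ) (hq : ∀ d, 1 ≤ q d) : On fun d _ Z f ω B z => Crepant f ω B z ∧
    Same f B.coeff 0 ∧ ∃ (S : Var) (π : S.X ⟶ Z.X), FinQuot π ∧ EmbDim (M d) π z ∧
      ∃ θ : S.Form d, θ.Nonzero ∧ ∀ x : Pt S.X, x.map π = z →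
        ∃ a, LocalEq (logCan θ 0) (q d) a x := by
  intro d hd ε hε R _
  obtain ⟨n, hn, H⟩ := Eq6.top d (M d) (hq d) hε
  refine ⟨2 * n, by omega, fun X Z f ω B z a b c i s t ⟨u, v, S, π, fq, em, θ, θ0, ca⟩ =>
    (has_iff f ω B _ z).2 ?_⟩
  obtain ⟨p1, p2, p3, ι, G, p4, ⟨p5, p6⟩, p7⟩ := FreeQuotient.fin fq
  refine Eq6.glue (X := X.o) (Y := S.o) (Z := Z.o) hd hε hn H a b ((pair_iff _ _ ω B).1 c) s u.1
    u.2 t p1 p2 p3 p4 p5 p6 p7 em fun hL m g J y m0 g0 J0 hy k => ?_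
  obtain ⟨γ, hγ⟩ := ca y hy
  refine Eq6.gor (Y := S.o) hL θ0 (hq d) J0 hγ fun E e => ?_
  obtain ⟨E', F, e1, k⟩ := k E e
  exact k.trans (add_eq_left.2 (Rat.cast_eq_zero.2 (v E' F e1)))

theorem onN_eq0 (M q : ℕ → ℕ) (hq : ∀ d, 1 ≤ q d) : OnN fun d _ Z f ω B z =>
    dimension Z.str = d ∧ Triv f ω B ∧ Same f B.coeff 0 ∧ ∃ (S : Var) (π : S.X ⟶ Z.X),
      FinQuot π ∧ EmbDim (M d) π z ∧ ∃ θ : S.Form d, θ.Nonzero ∧ ∀ x : Pt S.X, x.map π = z →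
        ∃ a, LocalEq (logCan θ 0) (q d) a x := by
  intro d hd ε hε R hR
  obtain ⟨n, hn, H⟩ := on_eq0 M q hq d hd ε hε R hR
  exact ⟨n, hn, fun X Z f ω B z a b c i s t ⟨_, _, v, tr, u⟩ => H X Z f ω B z a b c i s t
    ⟨⟨pull_of_dim s a v, tr z⟩, u⟩⟩

/-- towers over quotients of germs of bounded embedding dimension -/
theorem on_germE (M q : ℕ → ℕ) (hq : ∀ d, 1 ≤ q d) : OnN fun d _ W g η D w =>
    ∃ e : ℕ, dimension W.str = e ∧ 1 ≤ e ∧ Tower g ∧ Triv g η D ∧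
      ∃ (S : Var) (π : S.X ⟶ W.X), FinQuot π ∧ EmbDim (M e) π w ∧
        (NoTors π w ∨ e = d ∧ Same g D.coeff 0 ∧ ∃ θ : S.Form e, θ.Nonzero ∧
          ∀ x : Pt S.X, x.map π = w → ∃ a, LocalEq (logCan θ 0) (q e) a x) :=
  ((onN_tower Ft.fta (S := fun e W w => ∃ (S : Var) (π : S.X ⟶ W.X), FinQuot π ∧
    EmbDim (M e) π w ∧ NoTors π w) (on_eq M)).or (onN_eq0 M q hq)).mono
    fun _ _ _ _ _ _ _ ⟨e, a, b, c, t, S, π, u, v, k⟩ => by
      rcases k with k | ⟨rfl, k, l⟩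
      · exact .inl ⟨e, a, b, c, t, S, π, u, v, k⟩
      · exact .inr ⟨a, t, k, S, π, u, v, l⟩

end Vale.Agent.P283R.Lz
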