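import Vale.Agent.P283R.Eq.On
import Vale.Agent.P283R.Lz.Gm

/-!
# P283R, block EQ: the germ clause over any word for towers
-/

open CategoryTheory AlgebraicGeometry

namespace Vale.Agent.P283R.Lz

open Sl Sl.Var

variable {T : ℕ → ∀ X Y : Var, (X.X ⟶ Y.X) → Prop}

/-- quotients of germs of bounded embedding dimension, and any other class of germs -/
theorem Lifts.germE (H : Lifts T) (M q : ℕ → ℕ) (hq : ∀ d, 1 ≤ q d)
    {S : ℕ → ∀ Z : Var, Pt Z.X → Prop} (h : On fun d _ Z f ω B z => Crepant f ω B z ∧ S d Z z) :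
    OnN fun d Y W g η D w => ∃ e : ℕ, dimension W.str = e ∧ 1 ≤ e ∧ T d Y W g ∧ Triv g η D ∧
      ((∃ (S : Var) (π : S.X ⟶ W.X), FinQuot π ∧ EmbDim (M e) π w ∧
        (NoTors π w ∨ e = d ∧ Same g D.coeff 0 ∧ ∃ θ : S.Form e, θ.Nonzero ∧
          ∀ x : Pt S.X, x.map π = w → ∃ a, LocalEq (logCan θ 0) (q e) a x)) ∨ S e W w) :=
  ((H (fun e W w => (∃ (S : Var) (π : S.X ⟶ W.X), FinQuot π ∧ EmbDim (M e) π w ∧ NoTors π w) ∨
      S e W w) (((on_eq M).or h).mono fun _ _ _ _ _ _ _ u =>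
        u.2.imp (fun v => ⟨u.1, v⟩) fun v => ⟨u.1, v⟩)).or (onN_eq0 M q hq)).mono
    fun _ _ _ _ _ _ _ ⟨e, a, b, c, t, u⟩ => by
      rcases u with ⟨S, π, u, v, k | ⟨rfl, k, l⟩⟩ | u
      · exact .inl ⟨e, a, b, c, t, .inl ⟨S, π, u, v, k⟩⟩
      · exact .inr ⟨a, t, k, S, π, u, v, l⟩
      · exact .inl ⟨e, a, b, c, t, .inr u⟩

/-- one finite cover: bounded embedding dimension, or a mild point -/
theorem Lifts.germQ (H : Lifts T) (M q : ℕ → ℕ) (hq : ∀ d, 1 ≤ q d) :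
    OnN fun d Y W g η D w => ∃ e : ℕ, dimension W.str = e ∧ 1 ≤ e ∧ T d Y W g ∧ Triv g η D ∧
      ∃ (S : Var) (π : S.X ⟶ W.X), FinQuot π ∧ (EmbDim (M e) π w ∧
        (NoTors π w ∨ e = d ∧ Same g D.coeff 0 ∧ ∃ θ : S.Form e, θ.Nonzero ∧
          ∀ x : Pt S.X, x.map π = w → ∃ a, LocalEq (logCan θ 0) (q e) a x) ∨
        3 ≤ e ∧ ∃ y, (∀ x : Pt S.X, x.map π = w ↔ x = y) ∧ Sl.Mild e 1 (e - 3) S y) :=
  (H.germE M q hq cr_mq).mono fun _ _ _ _ _ _ _ ⟨e, a, b, c, t, S, π, u, v⟩ =>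
    ⟨e, a, b, c, t, v.imp (fun k => ⟨S, π, u, k⟩) fun ⟨k, y, l⟩ => ⟨k, S, π, y, u, l⟩⟩

end Vale.Agent.P283R.Lz
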