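import Vale.Agent.P283R.Eq.On2
import Vale.Agent.P283R.Lz.Mq

/-!
# P283R, block EQ: one finite cover for the whole germ clause
-/

open CategoryTheory AlgebraicGeometry

namespace Vale.Agent.P283R.Lz

open Sl Sl.Var

/-- one finite cover: bounded embedding dimension, or a mild point -/
theorem Lifts.germM {T : ℕ → ∀ X Y : Var, (X.X ⟶ Y.X) → Prop} (H : Lifts T) (M : ℕ → ℕ) :
    OnN fun d Y W g η D w => ∃ e : ℕ, dimension W.str = e ∧ 1 ≤ e ∧ T d Y W g ∧ Triv g η D ∧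
      ∃ (S : Var) (π : S.X ⟶ W.X), FinQuot π ∧ (EmbDim (M e) π w ∧
        (NoTors π w ∨ e = d ∧ Same g D.coeff 0 ∧ ∃ θ : S.Form e, θ.Nonzero ∧
          ∀ x : Pt S.X, x.map π = w → ∃ a, LocalEq (logCan θ 0) 1 a x) ∨
        3 ≤ e ∧ ∃ y, (∀ x : Pt S.X, x.map π = w ↔ x = y) ∧ Mild e (e - 3) S y) :=
  (H.germE M (fun _ => 1) (fun _ => le_rfl) on_mquot).mono
    fun _ _ _ _ _ _ _ ⟨e, a, b, c, t, S, π, u, v⟩ =>
      ⟨e, a, b, c, t, v.imp (fun k => ⟨S, π, u, k⟩) fun ⟨k, y, l⟩ => ⟨k, S, π, y, u, l⟩⟩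

end Vale.Agent.P283R.Lz
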