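import Vale.Agent.P283R.Eq.Gl2
import Vale.Agent.P283R.Eq.On3

/-!
# P283R, block EQ: bounded Cartier index on the cover
-/

open CategoryTheory AlgebraicGeometry

namespace Vale.Agent.P283R.Lz

open Sl Sl.Var

/-- the pull back of `K + B` to the cover has bounded index -/
theorem on_eqI (M : ℕ → ℕ) : On fun d _ Z f ω B z => Crepant f ω B z ∧
    ∃ (S : Var) (π : S.X ⟶ Z.X), FinQuot π ∧ EmbDim (M d) π z ∧
      ∃ (C : _) (θ : S.Form d) (Δ : S.QDiv), Same f B.coeff C ∧ Same π Δ.coeff C ∧ θ.Nonzero ∧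
        ∀ x : Pt S.X, x.map π = z → ∃ m a, 0 < m ∧ m ≤ M d ∧ LocalEq (logCan θ Δ) m a x := by
  intro d hd ε hε R _
  obtain ⟨n, hn, H⟩ := Eq6.top d (M d) (M d).factorial_pos hε
  refine ⟨2 * n, by omega, fun X Z f ω B z a b c i s t
    ⟨u, S, π, fq, em, C, θ, Δ, v, v', θ0, ca⟩ => (has_iff f ω B _ z).2 ?_⟩
  obtain ⟨p1, p2, p3, ι, G, p4, ⟨p5, p6⟩, p7⟩ := FreeQuotient.fin fq
  refine Eq6.glue2 (X := X.o) (Y := S.o) (Z := Z.o) hd hε hn H a b ((pair_iff _ _ ω B).1 c) s u.1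
    u.2 t p1 p2 p3 p4 p5 p6 p7 em fun hL m g J y m0 g0 J0 hy k => ?_
  obtain ⟨l, γ, l0, lq, hγ⟩ := ca y hy
  refine Eq6.gor2 (Y := S.o) hL θ0 l0 lq J0 hγ fun E e => ?_
  obtain ⟨E', F, e1, e2, k⟩ := k E e
  exact k.trans (congrArg (fun r : ℚ => _ + (r : ℝ)) ((v E' F e1).trans (v' E F e2).symm))

theorem onN_eqI (M : ℕ → ℕ) : OnN fun d _ Z f ω B z =>
    dimension Z.str = d ∧ Triv f ω B ∧ ∃ (S : Var) (π : S.X ⟶ Z.X), FinQuot π ∧ EmbDim (M d) π z ∧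
      ∃ (C : _) (θ : S.Form d) (Δ : S.QDiv), Same f B.coeff C ∧ Same π Δ.coeff C ∧ θ.Nonzero ∧
        ∀ x : Pt S.X, x.map π = z → ∃ m a, 0 < m ∧ m ≤ M d ∧ LocalEq (logCan θ Δ) m a x := by
  intro d hd ε hε R hR
  obtain ⟨n, hn, H⟩ := on_eqI M d hd ε hε R hR
  exact ⟨n, hn, fun X Z f ω B z a b c i s t ⟨_, _, v, tr, u⟩ => H X Z f ω B z a b c i s t
    ⟨⟨pull_of_dim s a v, tr z⟩, u⟩⟩

variable {T : ℕ → ∀ X Y : Var, (X.X ⟶ Y.X) → Prop}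

/-- the germ clause, for any class `P` of covers -/
theorem Lifts.germI (H : Lifts T) (M : ℕ → ℕ)
    {P : ℕ → ∀ S W : Var, (S.X ⟶ W.X) → Pt W.X → Prop}
    (h : On fun d _ Z f ω B z => Crepant f ω B z ∧
      ∃ (S : Var) (π : S.X ⟶ Z.X), FinQuot π ∧ P d S Z π z) :
    OnN fun d Y W g η D w => ∃ e : ℕ, dimension W.str = e ∧ 1 ≤ e ∧ T d Y W g ∧ Triv g η D ∧
      ∃ (S : Var) (π : S.X ⟶ W.X), FinQuot π ∧ (EmbDim (M e) π w ∧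
        (NoTors π w ∨ e = d ∧ ∃ (C : _) (θ : S.Form e) (Δ : S.QDiv), Same g D.coeff C ∧
          Same π Δ.coeff C ∧ θ.Nonzero ∧ ∀ x : Pt S.X, x.map π = w →
            ∃ m a, 0 < m ∧ m ≤ M e ∧ LocalEq (logCan θ Δ) m a x) ∨ P e S W π w) :=
  ((H (fun e W w => (∃ (S : Var) (π : S.X ⟶ W.X), FinQuot π ∧ EmbDim (M e) π w ∧ NoTors π w) ∨
      ∃ (S : Var) (π : S.X ⟶ W.X), FinQuot π ∧ P e S W π w)
      (((on_eq M).or h).mono fun _ _ _ _ _ _ _ u =>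
        u.2.imp (fun v => ⟨u.1, v⟩) fun v => ⟨u.1, v⟩)).or (onN_eqI M)).mono
    fun _ _ _ _ _ _ _ ⟨e, a, b, c, t, S, π, u, v⟩ => by
      rcases v with ⟨v, k | ⟨rfl, k⟩⟩ | v
      · exact .inl ⟨e, a, b, c, t, .inl ⟨S, π, u, v, k⟩⟩
      · exact .inr ⟨a, t, S, π, u, v, k⟩
      · exact .inl ⟨e, a, b, c, t, .inr ⟨S, π, u, v⟩⟩

/-- with the mild points of `Sl/Ml` -/
theorem Lifts.embI (H : Lifts T) (M : ℕ → ℕ) :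
    OnN fun d Y W g η D w => ∃ e : ℕ, dimension W.str = e ∧ 1 ≤ e ∧ T d Y W g ∧ Triv g η D ∧
      ∃ (S : Var) (π : S.X ⟶ W.X), FinQuot π ∧ (EmbDim (M e) π w ∧
        (NoTors π w ∨ e = d ∧ ∃ (C : _) (θ : S.Form e) (Δ : S.QDiv), Same g D.coeff C ∧
          Same π Δ.coeff C ∧ θ.Nonzero ∧ ∀ x : Pt S.X, x.map π = w →
            ∃ m a, 0 < m ∧ m ≤ M e ∧ LocalEq (logCan θ Δ) m a x) ∨
        3 ≤ e ∧ ∃ y, (∀ x : Pt S.X, x.map π = w ↔ x = y) ∧ Sl.Mild e 1 (e - 3) S y) :=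
  H.germI M (P := fun e S _ π w => 3 ≤ e ∧ ∃ y, (∀ x : Pt S.X, x.map π = w ↔ x = y) ∧
    Sl.Mild e 1 (e - 3) S y)
    (cr_mq.mono fun _ _ _ _ _ _ _ ⟨a, S, π, q, k, y, l⟩ => ⟨a, k, S, π, y, q, l⟩)

/-- with the mild points of `Lz/W` -/
theorem Lifts.embJ (H : Lifts T) (M : ℕ → ℕ) :
    OnN fun d Y W g η D w => ∃ e : ℕ, dimension W.str = e ∧ 1 ≤ e ∧ T d Y W g ∧ Triv g η D ∧
      ∃ (S : Var) (π : S.X ⟶ W.X), FinQuot π ∧ (EmbDim (M e) π w ∧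
        (NoTors π w ∨ e = d ∧ ∃ (C : _) (θ : S.Form e) (Δ : S.QDiv), Same g D.coeff C ∧
          Same π Δ.coeff C ∧ θ.Nonzero ∧ ∀ x : Pt S.X, x.map π = w →
            ∃ m a, 0 < m ∧ m ≤ M e ∧ LocalEq (logCan θ Δ) m a x) ∨
        3 ≤ e ∧ ∃ y, (∀ x : Pt S.X, x.map π = w ↔ x = y) ∧ Mild e (e - 3) S y) :=
  H.germI M (P := fun e S _ π w => 3 ≤ e ∧ ∃ y, (∀ x : Pt S.X, x.map π = w ↔ x = y) ∧
    Mild e (e - 3) S y)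
    (on_mquot.mono fun _ _ _ _ _ _ _ ⟨a, S, π, q, k, y, l⟩ => ⟨a, k, S, π, y, q, l⟩)

end Vale.Agent.P283R.Lz
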