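import Vale.Agent.P283R.Eq.On4
import Vale.Agent.P283R.Eq.Wi

/-!
# P283R, block EQ: bounded torsion in the local class groups
-/

open CategoryTheory AlgebraicGeometry

namespace Vale.Agent.P283R.Lz

open Sl Sl.Var Vale.Agent.P287D Vale.Agent.P297Z
open Vale.Agent.P283R.Gl (pq pq_is pq_ord)

theorem NoTors.index {N : ℕ} {X Z : Var} {f : X.X ⟶ Z.X} {z : Pt Z.X} (h : NoTors f z)
    (hN : 1 ≤ N) : Index N f z := fun D x m g a b c =>
  let ⟨g, e⟩ := h D x m g a b c; ⟨1, g, one_pos, hN, e⟩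

theorem Index.fac {N : ℕ} {X Z : Var} {f : X.X ⟶ Z.X} {z : Pt Z.X} (h : Index N f z)
    (D : X.PrimeDiv → ℤ) (x : Pt X.X) (m : ℕ) (g : X.K) (a : x.map f = z) (b : 0 < m)
    (c : LocalEq (fun E => D E) m g x) : ∃ g, LocalEq (fun E => D E) N.factorial g x := by
  obtain ⟨k, j, k0, le, j0, hj⟩ := h D x m g a b c
  obtain ⟨c, hc⟩ := Nat.dvd_factorial k0 le
  refine ⟨j ^ c, pow_ne_zero _ j0, fun E e => ?_⟩
  have e1 : ord (j ^ c) E = c * ord j E := (pq_ord (X := X.o) E _).trans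
    ((Pl.ord_pow _ _ _).trans (congrArg _ (pq_ord (X := X.o) E _).symm))
  rw [e1, hc]
  push_cast
  rw [hj E e]
  ring

/-- bounded index along the fibre -/
theorem on_index (M : ℕ → ℕ) : OnN fun d _ _ f _ _ z => Index (M d) f z := by
  intro d hd ε hε R hR
  have q0 := Finset.prod_pos (s := R) fun r _ => r.den_pos
  obtain ⟨n, hn, H⟩ := onN_ko (Nat.mul_pos (M d).factorial_pos q0) d hd ε hε R hR
  refine ⟨n, hn, fun X Z f ω B z a b c e s t u => H X Z f ω B z a b c e s t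
    ⟨u.1, u.2.1, fun x hx => ?_⟩⟩
  choose k hk using C3.den e
  generalize ∏ r ∈ R, r.den = q at q0 hk
  obtain ⟨m, g, m0, g0, hg⟩ := c.2.1 x trivial
  have eq : ∀ E, ((q * formOrd ω (RingEquiv.refl X.K) E + k E : ℤ) : ℚ) = q * logCan ω B E :=
    fun E => by
      push_cast
      rw [← hk, ← mul_add]
      rfl
  obtain ⟨j, j0, hj⟩ := Index.fac u.2.2 (fun E => q * formOrd ω (RingEquiv.refl X.K) E + k E) x m
    (g ^ q) hx m0 ⟨pow_ne_zero _ g0, fun E hE => by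
      have e1 : ord (g ^ q) E = q * ord g E := (pq_ord (X := X.o) E _).trans
        ((Pl.ord_pow _ _ _).trans (congrArg _ (pq_ord (X := X.o) E _).symm))
      beta_reduce
      rw [eq, mul_left_comm, ← hg E hE, e1]
      push_cast
      rfl⟩
  exact ⟨j, j0, fun E hE => ((hj E hE).trans (congrArg _ (eq E))).trans (by
    rw [Nat.cast_mul, mul_assoc])⟩

/-- the cover has bounded embedding dimension and bounded index -/
theorem on_eqX (M : ℕ → ℕ) : On fun d _ Z f ω B z => Crepant f ω B z ∧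
    ∃ (S : Var) (π : S.X ⟶ Z.X), FinQuot π ∧ EmbDim (M d) π z ∧ Index (M d) π z := by
  intro d hd ε hε R hR
  have hQ : 1 ≤ ∏ r ∈ R, r.den := Finset.prod_pos (s := R) fun a _ => Rat.den_pos a
  obtain ⟨n, hn, H⟩ := Eq6.top d (M d) (Nat.mul_pos (M d).factorial_pos hQ) hε
  refine ⟨2 * n, by omega, fun X Z f ω B z a b c i s t ⟨u, S, π, fq, em, nt⟩ =>
    (has_iff f ω B _ z).2 ?_⟩
  obtain ⟨p1, p2, p3, ι, G, p4, ⟨p5, p6⟩, p7⟩ := FreeQuotient.fin fq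
  have hB := (pair_iff _ _ ω B).1 c
  refine Eq6.glue (X := X.o) (Y := S.o) (Z := Z.o) hd hε hn H a b hB s u.1 u.2 t p1 p2 p3 p4 p5 p6
    p7 em fun _ m g J y m0 g0 _ hy k => ?_
  generalize hq : ∏ r ∈ R, r.den = Q at hQ
  have mR : (m : ℝ) ≠ 0 := Nat.cast_ne_zero.2 m0.ne'
  have QR : (((M d).factorial * Q : ℕ) : ℝ) ≠ 0 :=
    Nat.cast_ne_zero.2 (Nat.mul_pos (M d).factorial_pos hQ).ne'
  have w : ∀ E : S.o.PrimeDiv, ∃ j : ℤ, E.1 ⤳ y → (Q : ℝ) * (pq E).ord g = m * j := fun E => by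
    by_cases e : E.1 ⤳ y
    · obtain ⟨E', -, -, k⟩ := k E e
      obtain ⟨l, hl⟩ := Eq6.cn_int d (pq E)
      obtain ⟨j, hj⟩ : ∃ j : ℕ, (Q : ℚ) * B E' = j := by
        by_cases z : B E' = 0
        · exact ⟨0, by rw [z]; simp⟩
        · exact hq ▸ P283R.Br.den R (i _ z) (hB.1 _ trivial)
      have hj' : (Q : ℝ) * (B E' : ℝ) = j := by exact_mod_cast hj
      refine ⟨Q * (l - (pq E).ord J) + j, fun _ => ?_⟩
      rw [hl, div_eq_iff mR] at k
      push_cast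
      linear_combination Q * k + m * hj'
    · exact ⟨0, fun k => (e k).elim⟩
  choose D hD using w
  obtain ⟨h, h0, hh⟩ := nt.fac D y m (g ^ Q) hy m0 ⟨pow_ne_zero _ g0, fun E e => by
    have e1 : ord (g ^ Q) E = Q * (pq (X := S.o) E).ord g :=
      (pq_ord (X := S.o) E _).trans (Pl.ord_pow _ _ _)
    have e2 : (Q : ℤ) * (pq (X := S.o) E).ord g = m * D E := by exact_mod_cast hD E e
    rw [e1, e2]
    push_cast
    rfl⟩
  refine ⟨h, h0, fun E e => ?_⟩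
  have e1 : ((pq E).ord h : ℚ) = (M d).factorial * D E := by
    rw [← pq_ord]
    exact hh E e
  have e2 : ((pq E).ord h : ℝ) = (M d).factorial * D E := by exact_mod_cast e1
  rw [e2, div_eq_div_iff mR QR]
  push_cast
  linear_combination (M d).factorial * hD E e

/-- the germ clause -/
theorem Lifts.embX {T : ℕ → ∀ X Y : Var, (X.X ⟶ Y.X) → Prop} (H : Lifts T) (M : ℕ → ℕ) :
    OnN fun d Y W g η D w => ∃ e : ℕ, dimension W.str = e ∧ 1 ≤ e ∧ T d Y W g ∧ Triv g η D ∧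
      ∃ (S : Var) (π : S.X ⟶ W.X), FinQuot π ∧ (EmbDim (M e) π w ∧
        (Index (M e) π w ∨ e = d ∧ ∃ (C : _) (θ : S.Form e) (Δ : S.QDiv), Same g D.coeff C ∧
          Same π Δ.coeff C ∧ θ.Nonzero ∧ ∀ x : Pt S.X, x.map π = w →
            ∃ m a, 0 < m ∧ m ≤ M e ∧ LocalEq (logCan θ Δ) m a x) ∨
        3 ≤ e ∧ ∃ y, (∀ x : Pt S.X, x.map π = w ↔ x = y) ∧ Sl.Mild e 1 (e - 3) S y) :=
  ((H _ (on_eqX M)).or (H.embI M)).mono fun _ _ _ _ _ _ _ ⟨e, a, b, c, t, S, π, u, v⟩ => by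
    rcases v with ⟨v, k | k⟩ | v
    · exact .inl ⟨e, a, b, c, t, S, π, u, v, k⟩
    · exact .inr ⟨e, a, b, c, t, S, π, u, .inl ⟨v, .inr k⟩⟩
    · exact .inr ⟨e, a, b, c, t, S, π, u, .inr v⟩

end Vale.Agent.P283R.Lz
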