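import Vale.Agent.P283R.Eq.On5

/-!
# P283R, block EQ: the germ clause without the mild points
-/

open CategoryTheory AlgebraicGeometry

namespace Vale.Agent.P283R.Lz

open Sl Sl.Var

variable {T : ℕ → ∀ X Y : Var, (X.X ⟶ Y.X) → Prop}

/-- bounded index -/
theorem Lifts.embY (H : Lifts T) (M : ℕ → ℕ) :
    OnN fun d Y W g η D w => ∃ e : ℕ, dimension W.str = e ∧ 1 ≤ e ∧ T d Y W g ∧ Triv g η D ∧
      ∃ (S : Var) (π : S.X ⟶ W.X), FinQuot π ∧ EmbDim (M e) π w ∧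
        (Index (M e) π w ∨ e = d ∧ ∃ (C : _) (θ : S.Form e) (Δ : S.QDiv), Same g D.coeff C ∧
          Same π Δ.coeff C ∧ θ.Nonzero ∧ ∀ x : Pt S.X, x.map π = w →
            ∃ m a, 0 < m ∧ m ≤ M e ∧ LocalEq (logCan θ Δ) m a x) :=
  (H.embX M).mono fun _ _ _ _ _ _ _ ⟨e, a, b, c, t, S, π, u, v⟩ =>
    ⟨e, a, b, c, t, S, π, u, .inl v⟩

/-- no torsion -/
theorem Lifts.embZ (H : Lifts T) (M : ℕ → ℕ) :
    OnN fun d Y W g η D w => ∃ e : ℕ, dimension W.str = e ∧ 1 ≤ e ∧ T d Y W g ∧ Triv g η D ∧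
      ∃ (S : Var) (π : S.X ⟶ W.X), FinQuot π ∧ EmbDim (M e) π w ∧
        (NoTors π w ∨ e = d ∧ ∃ (C : _) (θ : S.Form e) (Δ : S.QDiv), Same g D.coeff C ∧
          Same π Δ.coeff C ∧ θ.Nonzero ∧ ∀ x : Pt S.X, x.map π = w →
            ∃ m a, 0 < m ∧ m ≤ M e ∧ LocalEq (logCan θ Δ) m a x) :=
  (H.embI M).mono fun _ _ _ _ _ _ _ ⟨e, a, b, c, t, S, π, u, v⟩ =>
    ⟨e, a, b, c, t, S, π, u, .inl v⟩

end Vale.Agent.P283R.Lz
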