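import Vale.Agent.P283R.Bx.Gl
import Vale.Agent.P283R.Be2.All
import Vale.Agent.P287D.Rm.Ine

/-!
# P283R, block EQ: the tier statement, pointwise form
-/

set_option linter.all false

open Set

noncomputable section

namespace Vale.Agent.P283R.Eq6

open Vale.Agent.P287D Vale.Agent.P283R.Tq Vale.Agent.P283R.Bx Vale.Agent.P297Z

/-- the tier statement for a given index `N` -/
def Pe6 (d E Q : ℕ) (ε : ℝ) (N : ℕ) : Prop :=
  ∀ (K L : Type) [Field K] [Algebra ℂ K] [Field L] [Algebra ℂ L] [Algebra K L]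
    [IsScalarTower ℂ K L] (G : Subgroup (L ≃ₐ[ℂ] L)) (S : Subalgebra ℂ L) (A : Subalgebra ℂ K)
    (χ : A →ₐ[ℂ] ℂ) (m : ℕ) (g : K), FF K d → Gq d G S A → 0 < m → g ≠ 0 →
    (∀ P, Thr A χ P → ε ≤ 1 + dsc d ((m : ℝ)⁻¹ • dv g) P) →
    (∀ P, Thr A χ P → Prm A P → dsc d ((m : ℝ)⁻¹ • dv g) P ≤ 0) →
    (∀ r ∈ W S A χ, r.IsMaximal → Emd E S r ∧ ∃ h, Crt Q S r m (algebraMap K L g) h) →
    Et.Con d N A χ m g

theorem top (d E : ℕ) {Q : ℕ} (hQ : 1 ≤ Q) {ε : ℝ} (hε : 0 < ε) :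
    ∃ N : ℕ, 1 ≤ N ∧ Pe6 d E Q ε N := by
  obtain ⟨J, n₀, hn₀, ha⟩ := Be2.abe d E Q ε hQ hε
  have hn : 2 ≤ 2 * (n₀ * Q) := Nat.le_mul_of_pos_right _ (Nat.mul_pos hn₀ hQ)
  refine ⟨2 * (n₀ * Q) * J.factorial, Nat.mul_pos (by omega) J.factorial_pos, ?_⟩
  intro K L _ _ _ _ _ _ G S A χ m g hK hG hm hg h1 h2 h3
  obtain ⟨y, D, hy, hcn⟩ := Cb.exists_cn hK
  have hP := pr ram hK hG ⟨D, hy⟩ hm hg
  refine core ram nt Fin.one fre hK hG ⟨D, hy⟩ hcn hm hg hn fun p hp pp => ?_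
  obtain ⟨r, hr, r1, r2⟩ := Mi.exists_max fre hG hp pp
  obtain ⟨em, h, cr⟩ := h3 r hr r1
  refine ha _ (by omega) ⟨2 * Q, by ring⟩ ⟨2 * n₀, by ring⟩ L G S p r _ m _ h hP pp r1 r2
    em cr (fun R hR => ?_) fun p' e => hyp ram hK hG ⟨D, hy⟩ hcn hε h1 (W.mono hr e)
  obtain ⟨P, l, e1, e2, e3, e4⟩ := ld_pd ram fre hK hG ⟨D, hy⟩ hcn m g hr hR
  have := h2 P e1 e2
  linarith

variable {L : Type} [Field L] [Algebra ℂ L]

theorem cn_int (d : ℕ) (P : Pl L) : ∃ k : ℤ, cn L d P = k := by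
  unfold cn
  split_ifs
  · unfold kap
    split_ifs
    · exact ⟨_, rfl⟩
    · exact ⟨0, by simp⟩
  · exact ⟨0, by simp⟩

/-- an invariant uniformiser: the inertia group is trivial -/
theorem free {S : Subalgebra ℂ L} {G : Subgroup (L ≃ₐ[ℂ] L)} (fG : Finite G) {q : Ideal S}
    {R : Pl L} (c : Cen S q R) (lo : ∀ a ∈ R.ring, a ∈ Lo S q) {σ : L ≃ₐ[ℂ] L} (hσ : σ ∈ G)
    (i : Inr S q σ) {f : L} (hf : Fix G f) (h1 : R.ord f = 1) : σ = 1 := by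
  have z : ∀ a : S, a ∈ q ↔ Pl.val R.toPlace (a : L) < 1 := fun a =>
    (c a).2.trans ((rd0 (c a).1).trans Rm.zr_iff)
  have o : ∀ a : S, a ∉ q → Pl.val R.toPlace (a : L) = 1 := fun a ha =>
    le_antisymm ((Pl.mem_ring_iff _ _).1 (c a).1) (not_lt.1 (mt (z a).2 ha))
  have := charZero_of_injective_algebraMap (algebraMap ℂ L).injective
  have m : (⟨σ, hσ⟩ : G) ∈ Rm.ine G R.toPlace := fun g hg => by
    obtain ⟨s, t, ht, rfl⟩ := lo g hg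
    obtain ⟨b, hb, e1⟩ := i s
    obtain ⟨b', hb', e2⟩ := i t
    have v1 := o t ht
    have v2 := o (t + b') fun k => ht ((Ideal.add_mem_iff_left q hb').1 k)
    have t0 : (t : L) ≠ 0 := (Rm.of_val_one v1).1
    have t1 : ((t + b' : S) : L) ≠ 0 := (Rm.of_val_one v2).1
    have e : σ (s / t : L) - s / t = ((b * t - s * b' : S) : L) / (t * ((t + b' : S) : L)) := by
      rw [map_div₀, sub_eq_iff_eq_add'.1 e1, sub_eq_iff_eq_add'.1 e2]
      push_cast at t1 ⊢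
      field_simp
      ring
    refine Rm.zr_iff.2 ((congrArg _ e).trans_lt ?_)
    rw [map_div₀, map_mul, v1, v2, mul_one, div_one]
    exact (z _).1 (q.sub_mem (q.mul_mem_right _ hb) (q.mul_mem_left _ hb'))
  have k := Rm.orderOf_dvd (Rm.c0_of fun n => by simpa using R.con (n : ℂ)⁻¹) m
    (f := f) (fun e => by simp [e] at h1) (hf σ hσ)
  rw [h1] at k
  exact congrArg Subtype.val (orderOf_eq_one_iff.1 (by exact_mod_cast Int.eq_one_of_dvd_one (Nat.cast_nonneg _) k))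

end Vale.Agent.P283R.Eq6
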